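import Vale.Agent.P278.H837.Defs

/-!
# P278: the universal covering in the ordinary topology, and compatible product decompositions
-/

open scoped ContDiff Manifold

namespace Vale.Agent.P278B7

open Vale.Agent.P278.StmtF Vale.Agent.P278.H837

universe u

/-- `π : M → X` is a universal covering, in the ordinary topology. -/
structure IsUnivCover {M X : Type*} [TopologicalSpace M] [TopologicalSpace X] (π : M → X) :
    Prop where
  cov : IsCoveringMap π
  surj : Function.Surjective π
  simply : SimplyConnectedSpace M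

variable (E : Type*) [NormedAddCommGroup E] [NormedSpace ℂ E]
  {X : Type*} [TopologicalSpace X] [ChartedSpace E X]

/-- The charts of `M` make `M` a complex manifold and `π : M → X` a local biholomorphism. -/
structure IsLift {M : Type*} [TopologicalSpace M] [ChartedSpace E M] (π : M → X) : Prop where
  mfd : IsManifold 𝓘(ℂ, E) ω M
  loc : IsLocalDiffeomorph 𝓘(ℂ, E) 𝓘(ℂ, E) ω π

variable {E}

/-- There are connected simply connected complex manifolds `Y i` and a biholomorphism
`Φ : M → ∏ Y i` such that `dΦ` maps `π^* F_i` onto `pr_i^* T_{Y i}`, the `i`-th summand of the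
tangent space of the product, and `Y i` has the dimension of `F_i`. -/
def Compatible {M : Type u} [TopologicalSpace M] [ChartedSpace E M] (π : M → X) {k : ℕ}
    (F : Fin k → Dist E X) : Prop :=
  ∃ (A : Fin k → Type) (_ : ∀ i, NormedAddCommGroup (A i)) (_ : ∀ i, NormedSpace ℂ (A i))
    (Y : Fin k → Type u) (_ : ∀ i, TopologicalSpace (Y i)) (_ : ∀ i, ChartedSpace (A i) (Y i))
    (Φ : Diffeomorph 𝓘(ℂ, E) (ModelWithCorners.pi fun i => 𝓘(ℂ, A i)) M (∀ i, Y i) ω),
    (∀ i, IsSCManifold (A i) (Y i) ∧ ConnectedSpace (Y i)) ∧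
    (∀ i x, Module.finrank ℂ (A i) = Module.finrank ℂ (F i x)) ∧
    ∀ i m, (pull π (F i) m).map
        (mfderiv 𝓘(ℂ, E) (ModelWithCorners.pi fun i => 𝓘(ℂ, A i)) Φ m).toLinearMap =
      LinearMap.range (LinearMap.single ℂ A i)

end Vale.Agent.P278B7
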