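import Vale.Agent.P278B7.Main

/-!
# P278: compatible product decompositions, in a short form
-/

open scoped ContDiff Manifold

namespace Vale.Agent.P278B7

open Vale.Agent.P278.StmtF Vale.Agent.P278.H837

universe u

variable {E : Type*} [NormedAddCommGroup E] [NormedSpace ℂ E]
  {X : Type*} [TopologicalSpace X] [ChartedSpace E X]
  {M : Type u} [TopologicalSpace M] [ChartedSpace E M]

/-- There is a biholomorphism `Φ : M → N` such that at every point the image of `P i` under `dΦ`
is `Q i`. -/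
def MapsOnto {V H : Type*} [NormedAddCommGroup V] [NormedSpace ℂ V] [TopologicalSpace H]
    (I : ModelWithCorners ℂ V H) (N : Type*) [TopologicalSpace N] [ChartedSpace H N] {k : ℕ}
    (P : Fin k → Dist E M) (Q : Fin k → Set V) : Prop :=
  ∃ Φ : Diffeomorph 𝓘(ℂ, E) I M N ω,
    ∀ i m (w : V), (∃ v ∈ P i m, mfderiv 𝓘(ℂ, E) I Φ m v = w) ↔ w ∈ Q i

/-- The `Y i` are connected simply connected complex manifolds, modelled on `A i`, of dimension
the rank of `F i`, and there is a biholomorphism `Φ : M → ∏ Y i` such that the image of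
`π^* F_i` under `dΦ` is `pr_i^* T_{Y i}`: the tangent vectors of the product whose components
of index `j ≠ i` vanish. -/
def SplitsAs (π : M → X) {k : ℕ} (F : Fin k → Dist E X) (A : Fin k → Type)
    [∀ i, NormedAddCommGroup (A i)] [∀ i, NormedSpace ℂ (A i)] (Y : Fin k → Type u)
    [∀ i, TopologicalSpace (Y i)] [∀ i, ChartedSpace (A i) (Y i)] : Prop :=
  (∀ i, IsSCManifold (A i) (Y i) ∧ ConnectedSpace (Y i)) ∧
  (∀ i x, Module.finrank ℂ (A i) = Module.finrank ℂ (F i x)) ∧
  MapsOnto (ModelWithCorners.pi fun i => 𝓘(ℂ, A i)) (∀ i, Y i) (fun i => pull π (F i))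
    fun i => {w | ∀ j, j ≠ i → w j = 0}

/-- `M` is a product of simply connected complex manifolds, compatibly with the `π^* F_i`. -/
def IsProduct (π : M → X) {k : ℕ} (F : Fin k → Dist E X) : Prop :=
  ∃ (A : Fin k → Type) (_ : ∀ i, NormedAddCommGroup (A i)) (_ : ∀ i, NormedSpace ℂ (A i))
    (Y : Fin k → Type u) (_ : ∀ i, TopologicalSpace (Y i)) (_ : ∀ i, ChartedSpace (A i) (Y i)),
    SplitsAs π F A Y

theorem Compatible.isProduct {π : M → X} {k : ℕ} {F : Fin k → Dist E X} (h : Compatible π F) :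
    IsProduct π F := by
  obtain ⟨A, a1, a2, Y, y1, y2, Φ, h1, h2, h3⟩ := h
  refine ⟨A, a1, a2, Y, y1, y2, h1, h2, Φ, fun i m w => ?_⟩
  have h4 : (∃ v ∈ pull π (F i) m,
      mfderiv 𝓘(ℂ, E) (ModelWithCorners.pi fun i => 𝓘(ℂ, A i)) Φ m v = w) ↔
      w ∈ LinearMap.range (LinearMap.single ℂ A i) := by
    rw [← h3 i m]
    exact Iff.rfl
  refine h4.trans ?_
  constructor
  · rintro ⟨a, rfl⟩ j hj
    exact Pi.single_eq_of_ne hj a
  · intro hw
    refine ⟨w i, funext fun j => ?_⟩
    by_cases hj : j = i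
    · subst hj
      exact Pi.single_eq_same j (w j)
    · rw [hw j hj]
      exact Pi.single_eq_of_ne hj (w i)

end Vale.Agent.P278B7
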