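import Vale.Agent.P278B7.Defs
import Vale.Agent.P278.H837.Final
import Vale.Agent.P300.H903.UC

/-!
# P278: existence and uniqueness of the universal covering, and the product decomposition
-/

open scoped ContDiff Manifold

namespace Vale.Agent.P278B7

open Vale.Agent.P278 Vale.Agent.P278.StmtF Vale.Agent.P278.H837 Vale.Agent.P300.H903

universe u v

theorem exists_cover (E : Type) [NormedAddCommGroup E] [NormedSpace ℂ E] (X : Type)
    [TopologicalSpace X] [T2Space X] [ConnectedSpace X] [ChartedSpace E X] :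
    ∃ (M : Type) (_ : TopologicalSpace M) (π : M → X), IsUnivCover π := by
  obtain ⟨V, hV, p, -, hsc, hcov, hsurj, -⟩ := exists_topUC (F := E) X
  exact ⟨V, hV, p, hcov, hsurj, hsc⟩

variable {E : Type*} [NormedAddCommGroup E] [NormedSpace ℂ E]
  {X : Type*} [TopologicalSpace X] [ChartedSpace E X]

theorem exists_lift [IsManifold 𝓘(ℂ, E) ω X] {M : Type*} [TopologicalSpace M] {π : M → X}
    (h : IsUnivCover π) : ∃ _ : ChartedSpace E M, IsLift E π :=
  ⟨pullCharted h.cov.isLocalHomeomorph,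
    @IsLift.mk E _ _ X _ _ M _ (pullCharted h.cov.isLocalHomeomorph) π
      (pullManifold h.cov.isLocalHomeomorph) (pullLocalDiffeo h.cov.isLocalHomeomorph)⟩

theorem unique_cover {M : Type u} [TopologicalSpace M] [ChartedSpace E M] {π : M → X}
    {M' : Type v} [TopologicalSpace M'] [ChartedSpace E M'] {π' : M' → X} (h : IsUnivCover π)
    (l : IsLift E π) (h' : IsUnivCover π') (l' : IsLift E π') (m : M) (m' : M')
    (hm : π m = π' m') :
    ∃! e : Diffeomorph 𝓘(ℂ, E) 𝓘(ℂ, E) M M' ω, e m = m' ∧ π' ∘ e = π := by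
  have := h.simply
  have := h'.simply
  have : LocallyPathConnectedSpace M := ChartedSpace.locallyPathConnectedSpace E M
  have : LocallyPathConnectedSpace M' := ChartedSpace.locallyPathConnectedSpace E M'
  obtain ⟨f, ⟨f1, f2⟩, f3⟩ := h'.cov.existsUnique_continuousMap_lifts
    ⟨π, h.cov.continuous⟩ m m' hm.symm
  obtain ⟨g, ⟨g1, g2⟩, -⟩ := h.cov.existsUnique_continuousMap_lifts
    ⟨π', h'.cov.continuous⟩ m' m hm
  have f2' : ∀ x, π' (f x) = π x := fun x => congrFun f2 x
  have g2' : ∀ x, π (g x) = π' x := fun x => congrFun g2 x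
  have gf : ∀ x, g (f x) = x := by
    have := (h.cov.existsUnique_continuousMap_lifts ⟨π, h.cov.continuous⟩ m m rfl).unique
      (y₁ := g.comp f) (y₂ := ContinuousMap.id M)
      ⟨by simp [f1, g1], funext fun x => (g2' _).trans (f2' x)⟩ ⟨rfl, rfl⟩
    exact fun x => DFunLike.congr_fun this x
  have fg : ∀ x, f (g x) = x := by
    have := (h'.cov.existsUnique_continuousMap_lifts ⟨π', h'.cov.continuous⟩ m' m' rfl).unique
      (y₁ := f.comp g) (y₂ := ContinuousMap.id M')
      ⟨by simp [f1, g1], funext fun x => (f2' _).trans (g2' x)⟩ ⟨rfl, rfl⟩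
    exact fun x => DFunLike.congr_fun this x
  have e1 : π' ∘ f = π := funext f2'
  have e2 : π ∘ g = π' := funext g2'
  have c1 : ContMDiff 𝓘(ℂ, E) 𝓘(ℂ, E) ω f :=
    contMDiff_lift l'.loc f.continuous (by rw [e1]; exact l.loc.contMDiff)
  have c2 : ContMDiff 𝓘(ℂ, E) 𝓘(ℂ, E) ω g :=
    contMDiff_lift l.loc g.continuous (by rw [e2]; exact l'.loc.contMDiff)
  refine ⟨⟨⟨f, g, gf, fg⟩, c1, c2⟩, ⟨f1, e1⟩, ?_⟩
  rintro e ⟨k1, k2⟩
  have := f3 ⟨e, e.continuous⟩ ⟨k1, k2⟩
  exact Diffeomorph.ext fun x => DFunLike.congr_fun this x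

theorem same_structure {M : Type*} [TopologicalSpace M] {π : M → X} (c c' : ChartedSpace E M)
    (l : @IsLift E _ _ X _ _ M _ c π) (l' : @IsLift E _ _ X _ _ M _ c' π) :
    @ContMDiff ℂ _ E _ _ E _ 𝓘(ℂ, E) M _ c E _ _ E _ 𝓘(ℂ, E) M _ c' ω id :=
  @contMDiff_lift ℂ _ E _ _ E _ 𝓘(ℂ, E) E _ _ E _ 𝓘(ℂ, E) M _ c M _ c' X _ _ ω π
    (@IsLift.loc E _ _ X _ _ M _ c' π l') id continuous_id
    (@IsLocalDiffeomorph.contMDiff ℂ _ E _ _ E _ _ E _ E _ 𝓘(ℂ, E) 𝓘(ℂ, E) M _ c X _ _ ω π
      (@IsLift.loc E _ _ X _ _ M _ c π l))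

set_option backward.isDefEq.respectTransparency false in
theorem compatible_of {M : Type u} [TopologicalSpace M] [ChartedSpace E M] {π : M → X}
    (hs : Function.Surjective π) (hl : IsLocalDiffeomorph 𝓘(ℂ, E) 𝓘(ℂ, E) ω π) {k : ℕ}
    {F : Fin k → Dist E X} (h : InducesProduct fun i => pull π (F i)) : Compatible π F := by
  obtain ⟨A, i1, i2, Y, i3, i4, Φ, hY, ⟨hb, hΦ⟩, hk⟩ := h
  have h0 : (ω : WithTop ℕ∞) ≠ 0 := by simp
  have key : ∀ i m, (pull π (F i) m).map
      (mfderiv 𝓘(ℂ, E) (ModelWithCorners.pi fun i => 𝓘(ℂ, A i)) Φ m).toLinearMap =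
      LinearMap.range (LinearMap.single ℂ A i) := by
    intro i m
    have hd := (hΦ.mdifferentiable h0) m
    have hm : ∀ v, v ∈ pull π (F i) m ↔ ∀ j, j ≠ i →
        (mfderiv 𝓘(ℂ, E) (ModelWithCorners.pi fun i => 𝓘(ℂ, A i)) Φ m v : ∀ i, A i) j = 0 := by
      intro v
      have hk' : pull π (F i) m = _ := hk i m
      rw [hk']
      simp only [Submodule.mem_iInf, kerD, LinearMap.mem_ker]
      refine forall₂_congr fun j _ => ?_
      rw [mfderiv_pi_apply hd v j]
      rfl
    ext w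
    constructor
    · rintro ⟨v, hv, rfl⟩
      refine ⟨(mfderiv 𝓘(ℂ, E) (ModelWithCorners.pi fun i => 𝓘(ℂ, A i)) Φ m v : ∀ i, A i) i, ?_⟩
      funext j
      by_cases hj : j = i
      · subst hj
        simp
      · have := (hm v).1 hv j hj
        rw [LinearMap.single_apply, Pi.single_eq_of_ne hj]
        exact this.symm
    · rintro ⟨a, rfl⟩
      obtain ⟨v, hv⟩ := (hΦ.mfderivToContinuousLinearEquiv h0 m).surjective
        (LinearMap.single ℂ A i a)
      have hv' : mfderiv 𝓘(ℂ, E) (ModelWithCorners.pi fun i => 𝓘(ℂ, A i)) Φ m v =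
        LinearMap.single ℂ A i a := hv
      refine ⟨v, (hm v).2 fun j hj => ?_, hv'⟩
      rw [hv', LinearMap.single_apply, Pi.single_eq_of_ne hj]
  refine ⟨A, i1, i2, Y, i3, i4, hΦ.diffeomorphOfBijective hb, fun i => ⟨hY i, ?_⟩, fun i x => ?_,
    key⟩
  · have := (hY i).simply
    infer_instance
  · obtain ⟨m, rfl⟩ := hs x
    have e1 := LinearEquiv.finrank_map_eq
      (hΦ.mfderivToContinuousLinearEquiv h0 m).toLinearEquiv (pull π (F i) m)
    have e2 := LinearEquiv.finrank_map_eq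
      (hl.mfderivToContinuousLinearEquiv h0 m).toLinearEquiv (pull π (F i) m)
    have e3 : (pull π (F i) m).map
        (hl.mfderivToContinuousLinearEquiv h0 m).toLinearEquiv.toLinearMap = F i (π m) :=
      Submodule.map_comap_eq_of_surjective (hl.mfderivToContinuousLinearEquiv h0 m).surjective _
    have e4 : (pull π (F i) m).map
        (hΦ.mfderivToContinuousLinearEquiv h0 m).toLinearEquiv.toLinearMap =
        LinearMap.range (LinearMap.single ℂ A i) := key i m
    have e5 := LinearMap.finrank_range_of_inj (f := LinearMap.single ℂ A i)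
      (Pi.single_injective i)
    rw [e3] at e2
    rw [e4] at e1
    exact e5.symm.trans (e1.trans e2.symm)

theorem beauville [FiniteDimensional ℂ E] [IsManifold 𝓘(ℂ, E) ω X] [CompactSpace X] [T2Space X]
    [ConnectedSpace X] (h : Form E X) (hh : IsKahler h) {k : ℕ} (F : Fin k → Dist E X)
    (hF : IsSplitting F) {M : Type u} [TopologicalSpace M] [ChartedSpace E M] {π : M → X}
    (c : IsUnivCover π) (l : IsLift E π) : Compatible π F := by
  have := c.simply
  have := l.mfd
  exact compatible_of c.surj l.loc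
    ((final π c.cov l.loc k).1 inferInstance inferInstance h hh F hF)

end Vale.Agent.P278B7
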